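import Crest.Agent.X212.Mp86.En2
import Crest.Agent.X212.Op40.Main
import Crest.Agent.X212.Pb50.Pt

/-!
# Row 212, SW-MAP (helper44): critical points are static solutions, the base configuration solves
the equations far out
-/

set_option autoImplicit false
set_option linter.unusedSectionVars false
set_option maxHeartbeats 400000
noncomputable section
open scoped Manifold ContDiff Topology InnerProductSpace
open MeasureTheory Set Function Filter

namespace Crest.Agent.X212.Map44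
open An hiding Cfg Pt
open Cyf70 Sw Sw.En3 Sob92 Pb50 Mp86.En
open M (Mf pm)

variable {κ lam ν : Type} [Fintype κ] [Fintype lam] [Fintype ν] [DecidableEq ν] {X : Mf 4}
  {nc nr : ℕ}

section bg
variable {b : Bg X.I X.M κ lam ν nc} (hb : b.OK) {c : Cfg X.M κ ν}
include hb

theorem pm_eD (hc : b.Adm c) (x : X.M) : b.pm x (b.eD c x) = b.eD c x := by
  rw [Bg.eD, map_add, Op40.pm_dir hb (hc.sΦ x) (.of_forall hc.pΦ), Op40.pm_ms hb]

theorem p2_eC (c : Cfg X.M κ ν) (x : X.M) : b.p2 x (b.eC c x) = b.eC c x := by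
  rw [Bg.eC, map_sub, Sw88.p2_p2 hb, hb.omp]

end bg

section cyl
variable {e : En3 κ lam ν} (he : e.OK) {v : e.YC}

theorem p2_inv (x : e.Y.M × ℝ) : e.cyl.p2 x = e.cyl.p2 (x.1, 0) := by
  have h : ∀ a c, e.cyl.B.P a c x = e.cyl.B.P a c (x.1, 0) := fun a c => by
    cases a <;> cases c <;> rfl
  refine congrArg (fun S => idx S (ContinuousLinearMap.id ℝ ℝ)) (funext₂ fun s t => ?_)
  simp only [Base.sd, Base.a2, Base.st, h]
  rfl

include he

/-- a self-dual form is determined by its `dt` components -/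
theorem sd_zero {x : e.Y.M × ℝ} {η : F2 κ} (h : e.cyl.p2 x η = η)
    (h0 : ∀ k, η (none, some k) = 0) : η = 0 := by
  have B := he.cyl.B
  have a : ∀ s, ∑ t, e.cyl.B.sd x s t * η t = η s := fun s => by rw [← Sw88.p2_apply, h]
  have sw : ∀ i j, η (i, j) = -η (j, i) := fun i j => by
    rw [← a, ← a (j, i), ← Finset.sum_neg_distrib]
    exact Finset.sum_congr rfl fun t _ => by rw [← neg_mul, ← Wz78.sd_swap B]; rfl
  have n0 : η (none, none) = 0 := by linarith [sw none none]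
  have n1 : ∀ k, η (some k, none) = 0 := fun k => by rw [sw, h0, neg_zero]
  ext ⟨_ | i, _ | j⟩
  exacts [n0, h0 j, n1 i, by
    rw [← a]
    simp only [← Wz78.st_sd B x (some i, some j), Finset.sum_mul, mul_assoc]
    rw [Finset.sum_comm]
    simp only [← Finset.mul_sum, a]
    simp [Fintype.sum_prod_type, Fintype.sum_option, n0, h0, n1, Base.st, cyl_o, o_some he]]

theorem crit_D (hv : Crit v) (x : e.Y.M × ℝ) :
    e.cyl.eD (fz v) x = e.b (nm v) • e.m.ρ none x.1 (v.Φ x.1) := by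
  have h1 := congrArg (e.m.ρ none x.1) (sub_eq_zero.1 (hv.2.2 x.1))
  have h2 := pm_eD (X := e.Z) he.cyl hv.1 (x.1, 0)
  have h3 : e.m.p x.1 (e.cyl.eD (fz v) (x.1, 0)) = _ := (congrArg _ h2.symm).trans
    ((congrArg (· (e.cyl.eD (fz v) (x.1, 0))) (Sw88.p8 he.cyl (x.1, 0)).p_pm).trans h2)
  rw [map_neg, ρρ he, neg_neg, h3, map_smul] at h1
  rw [← h1]
  exact (eD_sl (hv.1.sΦ _)).trans (by rw [nb_none, map_zero, zero_add]; rfl)

theorem crit_C (hv : Crit v) (x : e.Y.M × ℝ) :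
    e.cyl.eC (fz v) x = -deriv e.f (hol v) • e.ζ x.1 := by
  have h1 := sd_zero he (x := (x.1, 0)) (η := e.cyl.eC (fz v) (x.1, 0) + deriv e.f (hol v) • e.ζ x.1)
    (by rw [map_add, map_smul, he.pζ, p2_eC (X := e.Z) he.cyl])
    fun k => (mul_eq_zero.1 (hv.2.1 k x.1)).resolve_left two_ne_zero
  have h2 : e.cyl.fc (fz v) x = e.cyl.fc (fz v) (x.1, 0) := by
    ext ⟨_ | i, _ | j⟩
    exacts [(fc_none _ _).1.trans (fc_none _ _).1.symm, (fc_none _ _).1.trans (fc_none _ _).1.symm,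
      (fc_none _ _).2.trans (fc_none _ _).2.symm, fc_sl he (fun i => hv.1.sa i _) i j]
  rw [neg_smul, ← eq_neg_of_add_eq_zero_left h1, Bg.eC, h2, p2_inv]
  rfl

end cyl

variable {N : Type} [Fintype N] {d : Dt κ lam ν} {ty : N → d.𝓔}
  {T : Type} [NormedAddCommGroup T] [NormedSpace ℝ T] [FiniteDimensional ℝ T]
  {s : Pz X 0 fun i => d.e (ty i)} {σ : Cel s nc nr T} (h : σ.toFam.OK) (hβ : s.Cr σ.β)
include h hβ

theorem bs_eq {t : T} (ht : t ∈ σ.Q) : σ.bs t = s.base σ.β := by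
  refine Cfg.ext (funext₂ fun a x => ?_) rfl
  by_cases hx : ∃ i, ∃ K ∈ s.nk i, x ∈ K.ψ.target
  · obtain ⟨i, K, hK, k⟩ := hx
    rw [← K.ψ.right_inv k]
    simp only [Cel.bs, S_nk h ht hK (K.ψ.map_target k), (adm_base hβ).pa]
  · have : ∀ b, (s.base σ.β).a b x = 0 := fun b => Finset.sum_eq_zero fun i _ =>
      Finset.sum_eq_zero fun j _ => elim_zero fun K hK => mul_eq_zero_of_left
        (by_contra fun k => hx ⟨i, K, hK, K.dp_sub one_pos (bw_dp K k).2.2⟩) _
    simp [Cel.bs, this]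

/-- the base configuration solves the equations far out -/
theorem base_far : ∃ r, ∀ t ∈ σ.Q, ∀ x ∉ s.core r,
    (σ.P t).bg.eD (s.base σ.β) x = (σ.P t).p0.D (s.base σ.β) x ∧
      (σ.P t).bg.eC (s.base σ.β) x = (σ.P t).p0.C (s.base σ.β) x := by
  have k : ∀ p : N × Bool, ∃ r : ℝ, ∀ L ∈ s.nk p.1, L.Inf p.2 → ∀ y : (d.e (ty p.1)).Y.M × ℝ,
      r < pm p.2 * y.2 → y.2 ∈ L.deep 2 ∧ (∀ a, (L.pb (s.base σ.β)).a a y = (fz (σ.β p.1 p.2)).a a y) ∧
        (L.pb (s.base σ.β)).Φ y = (fz (σ.β p.1 p.2)).Φ y := fun ⟨i, b⟩ => by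
    cases e : s.nk i with
    | none => exact ⟨0, by simp⟩
    | some L =>
      by_cases hb : L.Inf b
      swap
      · exact ⟨0, fun _ k => by cases k; exact fun k => (hb k).elim⟩
      obtain ⟨R, -, hR⟩ := nd_basis.eventually_iff.1 ((eventually_all.2 fun a =>
        base_ev h.site (g := fun i s => (fz (σ.β i s)).a a) e hb).and
          (base_ev h.site (g := fun i s => (fz (σ.β i s)).Φ) e hb))
      refine ⟨max R (|L.p.getD 0| + |L.q.getD 0| + 2), fun _ k _ y hy => ?_⟩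
      cases k
      refine ⟨?_, hR ((le_max_left _ _).trans_lt hy)⟩
      have h1 := (le_max_right _ _).trans_lt hy
      have a1 := abs_nonneg (L.p.getD 0)
      have a2 := abs_nonneg (L.q.getD 0)
      cases b
      · refine ⟨by simp [show L.p = none from hb], fun _ ha => ?_⟩
        obtain ⟨a, k, rfl⟩ := Option.map_eq_some_iff.1 ha
        simp only [k, pm, Option.getD_some, Bool.false_eq_true, if_false] at h1
        linarith [neg_abs_le a]
      · refine ⟨fun _ ha => ?_, by simp [show L.q = none from hb]⟩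
        obtain ⟨a, k, rfl⟩ := Option.map_eq_some_iff.1 ha
        simp only [k, pm, Option.getD_some, if_true] at h1
        linarith [le_abs_self a]
  choose r hr using k
  obtain ⟨R, hR⟩ := (finite_range r).bddAbove
  refine ⟨R, fun t ht x hx => ?_⟩
  simp only [Pz.core, mem_ofPred_eq, not_forall, not_not] at hx
  obtain ⟨i, b, L, hL, hb, y, hy, rfl⟩ := hx
  obtain ⟨K, hK, e⟩ := h.en t ht i L hL
  have h1 := fun y (k : R < pm b * Prod.snd y) => hr (i, b) L hL hb y ((hR ⟨_, rfl⟩).trans_lt k)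
  have h2 : ∀ᶠ z in 𝓝 y, R < pm b * z.2 := (isOpen_nd R).mem_nhds hy.2.2
  have h3 : sl (L.pb (s.base σ.β)) y.2 = σ.β i b := YC.ext
    (funext₂ fun j z => (h1 (z, y.2) hy.2.2).2.1 _) (funext fun z => (h1 (z, y.2) hy.2.2).2.2)
  have hs : y ∈ K.ψ.source := ng_ψ e ▸ L.mem_src.2 hy.2.1
  have h4 := pt_ψ (h.ok t ht).toOK 0 (s.base σ.β) hK (x := y)
    (by simpa only [Nk.deep, ng_p e, ng_q e] using (h1 y hy.2.2).1) (by simp)
  have c := hβ i b ⟨L, hL, hb⟩
  have a := fun a => h2.mono fun z hz => (h1 z hz).2.1 a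
  have φ := h2.mono fun z hz => (h1 z hz).2.2
  simp only [Pc.pt, pt, tau, Finsupp.sum_zero_index, add_zero, Nk.pb, ng_ψ e, h3] at h4
  rw [h4.1, h4.2, ← ng_ψ e, eD_ψ K hs, eC_ψ K hs, Nk.pb, ng_ψ e, Sw88.eD_congr a φ,
    Sw88.eC_congr a φ, crit_D (h.site.en i) c, crit_C (h.site.en i) c, (h1 y hy.2.2).2.2]
  exact ⟨rfl, rfl⟩

end Crest.Agent.X212.Map44
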