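import Crest.Agent.X212.Map44.Av
import Crest.Agent.X212.Map44.Crit
import Crest.Agent.X212.Map77.S3
import Crest.Agent.X212.St29.Ms
import Crest.Agent.X212.St29.Mc

/-!
# Row 212, SW-MAP (helper44): the field `rad` of `Sw.MapStmt`, and `Sw.MapStmt`
-/

set_option autoImplicit false
set_option linter.unusedSectionVars false
set_option maxHeartbeats 400000
noncomputable section
open scoped Manifold ContDiff Topology InnerProductSpace
open MeasureTheory Set Function Filter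

namespace Crest.Agent.X212.Map44
open An hiding Cfg Pt
open Cyf70 Sw Sw.En3 Sob92 Prm93 Pb50 St29 Map77.S
open Nd18 (Jv Dp ct)
open M (Mf pm)

variable {κ lam ν : Type} [Fintype κ] [Fintype lam] [Fintype ν] [DecidableEq ν] {X : Mf 4}
  {nc nr : ℕ} {N : Type} [Fintype N] {d : Dt κ lam ν} {ty : N → d.𝓔}
  {T : Type} [NormedAddCommGroup T] [NormedSpace ℝ T] [FiniteDimensional ℝ T]
  {s : Pz X 0 fun i => d.e (ty i)} {i : N} {t₀ : T}

section nk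
variable {e : En3 κ lam ν} {b b' : Bg X.I X.M κ lam ν nc} (K₀ : Nk e b) (K : Nk e b') (δ : ℝ)

/-- where `K` is active it is the neck `K₀` at depth `δ` -/
def Same : Prop := ∀ x, K.χ x ≠ 0 → x ∈ K₀.dp δ ∧ (K.ψ.symm x).1 = (K₀.ψ.symm x).1 ∧
  ∀ y, K.ψ (y, K.tm x) = K₀.ψ (y, K₀.tm x)

/-- the form `ζ` on the neck -/
def zt : X.M → F2 κ := ps K₀.toNk δ fun z => e.ζ z.1

variable {K₀ K δ} (hδ : 0 < δ) (H : Same K₀ K δ) (c : Cfg X.M κ ν) (x : X.M)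
include hδ H

theorem Same.rad : K.rad c x = K.χ x • e.b (Map44.av K₀.toNk δ (fun z => ⟪c.Φ z, c.Φ z⟫_ℝ) x) •
    b'.m.ρ none x (c.Φ x) := by
  rw [Nk.rad, mul_smul]
  by_cases hx : K.χ x = 0
  · rw [hx, zero_smul, zero_smul]
  · simp only [av_eq K₀.toNk hδ _ (H x hx).1, nm, sl, Cfg.pb, (H x hx).2.2,
      real_inner_self_eq_norm_sq]

theorem Same.hl : K.hl c x = K.χ x • -deriv e.f (Map44.av K₀.toNk δ
    (fun z => 4 * ∑ k, zt K₀ δ z (none, some k) * c.a (some k) z) x) • zt K₀ δ x := by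
  rw [Nk.hl, Nd18.Nk.ext, smul_comm]
  by_cases hx : K.χ x = 0
  · rw [hx, zero_smul, zero_smul]
  · obtain ⟨h1, h2, h3⟩ := H x hx
    have h4 := fun y => src K₀ (Nd18.Dp_sub hδ h1) y
    simp only [av_eq K₀.toNk hδ _ h1, hol, sl, Cfg.pb, h2, h3, zt, Map44.ps, K₀.tm_ψ _ (h4 _),
      K₀.ψ.left_inv (h4 _), tc_one hδ h1, one_smul]

end nk

section pz
variable {e : N → En3 κ lam ν} {P : Pz X nc e}

theorem pm_p0 (hb : P.bg.OK) {c : Cfg X.M κ ν} (hc : P.bg.Adm c) (x : X.M) :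
    P.bg.pm x (P.p0.D c x) = P.p0.D c x := by
  simp only [Pz.p0, map_sum]
  refine Finset.sum_congr rfl fun i _ => ?_
  cases P.nk i with
  | none => simp
  | some K => simp only [Option.elim_some, Nk.rad, map_smul, pm_ρ hb (hc.pΦ x)]

theorem p2_p0 (he : ∀ i, (e i).OK) (c : Cfg X.M κ ν) (x : X.M) :
    P.bg.p2 x (P.p0.C c x) = P.p0.C c x := by
  simp only [Pz.p0, map_sum]
  refine Finset.sum_congr rfl fun i _ => ?_
  cases P.nk i with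
  | none => simp
  | some K =>
    simp only [Option.elim_some, Nk.hl, map_smul]
    by_cases hx : x ∈ K.ψ.target
    · have := p2_ψ K (K.ψ.map_target hx)
      rw [K.ψ.right_inv hx] at this
      rw [Nd18.Nk.ext, map_smul, this, p2_inv, (he i).pζ]
    · rw [K.ext_zero _ (off K hx), map_zero]

end pz

section rp
variable {𝓕 : Sw.Fam s nc T} {K₀ : Nk (d.e (ty i)) (𝓕.P t₀).bg} {ℓ : T × ℝ → ℝ} {V : Set T}
  (R : Rp 𝓕 i t₀ K₀ ℓ V)
include R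

theorem rp_dp : ∃ δ > 0, ∀ᶠ t in 𝓝 t₀, ∀ r ∉ Dp K₀.p K₀.q δ, cz K₀ ℓ (t, r) = 0 := by
  obtain ⟨δ, h0, h1⟩ : ∃ δ > 0, ∀ᶠ t in 𝓝 t₀, ∀ r a, K₀.p = some a → r < a + δ →
      cz K₀ ℓ (t, r) = 0 := by
    cases e : K₀.p with
    | none => exact ⟨1, one_pos, by simp⟩
    | some a =>
      obtain ⟨a', h1, h2⟩ := R.left e
      exact ⟨a' - a, sub_pos.2 h1, h2.mono fun t k r _ e hr => k r (by cases e; linarith)⟩
  obtain ⟨δ', h0', h1'⟩ : ∃ δ > 0, ∀ᶠ t in 𝓝 t₀, ∀ r a, K₀.q = some a → a - δ < r →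
      cz K₀ ℓ (t, r) = 0 := by
    cases e : K₀.q with
    | none => exact ⟨1, one_pos, by simp⟩
    | some a =>
      obtain ⟨a', h1, h2⟩ := R.right e
      exact ⟨a - a', sub_pos.2 h1, h2.mono fun t k r _ e hr => k r (by cases e; linarith)⟩
  refine ⟨_, lt_min h0 h0', (h1.and h1').mono fun t k r hr => ?_⟩
  rcases Nd18.not_Dp hr with ⟨a, e, h⟩ | ⟨a, e, h⟩
  exacts [k.1 r a e (by linarith [min_le_left δ δ']), k.2 r a e (by linarith [min_le_right δ δ'])]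

theorem rp_same {t : T} (ht : t ∈ V) {δ : ℝ} (hδ : 0 < δ)
    (h0 : ∀ r ∉ Dp K₀.p K₀.q δ, cz K₀ ℓ (t, r) = 0) : ∃ K ∈ (𝓕.P t).nk i, Same K₀ K δ ∧
      ∀ x, K.χ x = cz K₀ ℓ (t, K₀.tm x) := by
  obtain ⟨K, k0, k1, k2, k3, k4⟩ := R.nk _ ht
  have a : ∀ x ∈ K₀.ψ.target, K.tm x = ℓ (t, K₀.tm x) ∧ (K.ψ.symm x).1 = (K₀.ψ.symm x).1 :=
    fun x hx => by
      have h4 := K₀.mem_src.1 (K₀.ψ.map_target hx)
      have h5 := k3 (K₀.ψ.symm x).1 _ h4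
      have h6 : (_, _) ∈ K.ψ.source :=
        src K (by simpa only [Nd18.Nk.J, k1, k2] using R.maps ht h4) (K₀.ψ.symm x).1
      rw [Prod.mk.eta, K₀.ψ.right_inv hx] at h5
      constructor
      · conv_lhs => rw [← h5, K.tm_ψ _ h6, K₀.snd_symm hx]
      · conv_lhs => rw [← h5, K.ψ.left_inv h6]
  have b : ∀ x, K.χ x = cz K₀ ℓ (t, K₀.tm x) := fun x => by
    by_cases hx : x ∈ K₀.ψ.target
    · simp only [Nd18.Nk.χ, Nd18.Nk.cut, cz, k1, k2, (a x hx).1]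
    · rw [h0 _ fun k => hx (K₀.dp_sub hδ k), K.χ_zero (off K fun k => hx ?_)]
      obtain ⟨r, r1, r2⟩ := k4 (K.mem_src.1 (K.ψ.map_target k))
      have := k3 (K.ψ.symm x).1 r r1
      rw [show ℓ (t, r) = _ from r2, Prod.mk.eta, K.ψ.right_inv k] at this
      exact this ▸ K₀.ψ.map_source (src K₀ r1 _)
  refine ⟨K, k0, fun x hx => ?_, b⟩
  have h1 : x ∈ K₀.dp δ := by_contra fun k => hx ((b x).trans (h0 _ k))
  have h2 := a x (K₀.dp_sub hδ h1)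
  exact ⟨h1, h2.2, fun y => h2.1 ▸ k3 y _ (Nd18.Dp_sub hδ h1)⟩

theorem rp_sb (h : 𝓕.OK) {O : Set T} (hO : IsOpen O) (hV : O ⊆ V) {δ : ℝ} (hδ : 0 < δ)
    (h0 : ∀ t ∈ O, ∀ r ∉ Dp K₀.p K₀.q δ, cz K₀ ℓ (t, r) = 0) :
    SB s.bg.F.toPre O fun t x => cz K₀ ℓ (t, K₀.tm x) := by
  by_cases hb : ∃ b, K₀.Inf b
  · obtain ⟨b, hb⟩ := hb
    obtain rfl := R.inf b hb
    exact (SB.fixed ((tw h (R.sub R.mem)).cmp.Cb_iff.2 K₀.cb_χ)).congr fun t _ => funext fun x => by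
      simp [cz, Nd18.Nk.χ]
  · obtain ⟨a, ha⟩ := Option.ne_none_iff_exists'.1 fun k : K₀.p = none => hb ⟨false, k⟩
    obtain ⟨b, hb⟩ := Option.ne_none_iff_exists'.1 fun k : K₀.q = none => hb ⟨true, k⟩
    have e : Icc (a + δ) (b - δ) = Dp K₀.p K₀.q δ := by ext; simp [Dp, ha, hb]
    exact (push K₀ _ hO (fun z hz => (R.sm_cz (hV hz.1) z.2).contDiffWithinAt) (e ▸ Nd18.Dp_sub hδ)
      (e ▸ h0) (g := fun _ => (1 : ℝ)) contMDiff_const fun _ _ _ => (mul_one _).symm).choose_spec.2.1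

end rp

variable {σ : Cel s nc nr T} {k : ℕ} (h : σ.toFam.OK) (hβ : s.Cr σ.β) (hk : 7 ≤ k)
include h hβ hk

theorem ah_Φ : AH s.bg.F.toPre (k + 1) (σ.U k) (fun _ => (s.base σ.β).Φ) fun v => (cv σ v).Φ :=
  ⟨.fixed (cb_base_Φ hβ), (VH.of ⟨_, sup h⟩ (by omega) contDiff_snd.fst.contDiffOn).congr
    fun _ _ _ => add_sub_cancel_left _ _⟩

theorem ah_a (a : Option κ) :
    AH s.bg.F.toPre (k + 1) (σ.U k) (fun _ => (s.base σ.β).a a) fun v => (cv σ v).a a :=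
  (AH.sum ⟨_, sup h⟩ (by omega) fun b => AH.smul (g := fun v : σ.C k => (c0 σ v).a b)
    ((h.sS a b).reparam contDiff_snd.snd.contDiffOn fun _ hv => hv) ⟨.fixed (cb_base_a hβ b),
      ((VH.of ⟨_, sup h⟩ (by omega) contDiffOn_fst).clm (EuclideanSpace.proj b)).congr
        fun _ _ _ => add_sub_cancel_left _ _⟩).congr
    (fun _ hv x => congrArg (·.a a x) (bs_eq h hβ hv).symm) fun _ _ _ => rfl

theorem ah_nk (i : N) {v₀ : σ.C k} (hv : v₀ ∈ σ.U k) : ∃ O ∈ 𝓝 v₀,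
    AH s.bg.F.toPre (k + 1) (σ.U k ∩ O)
      (fun v x => ((σ.P v.2.2).nk i).elim 0 fun K => K.rad (s.base σ.β) x)
      (fun v x => ((σ.P v.2.2).nk i).elim 0 fun K => K.rad (cv σ v) x) ∧
    AH s.bg.F.toPre (k + 1) (σ.U k ∩ O)
      (fun v x => ((σ.P v.2.2).nk i).elim 0 fun K => K.hl (s.base σ.β) x)
      fun v x => ((σ.P v.2.2).nk i).elim 0 fun K => K.hl (cv σ v) x := by
  have c : ContDiff ℝ ∞ fun v : σ.C k => v.2.2 := contDiff_snd.snd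
  have hS : ∃ S, Sup s.bg.F.toPre S := ⟨_, sup h⟩
  rcases rp_or_off h hv i with h0 | ⟨K₀, ℓ, V, R⟩
  · have z : ∀ t, (σ.P t).Off i → ∀ c x, (((σ.P t).nk i).elim 0 fun K => K.rad c x) = 0 ∧
        (((σ.P t).nk i).elim 0 fun K => K.hl c x) = 0 := fun t ht c x =>
      ⟨elim_zero fun K hK => let ⟨a, h1, h2⟩ := ht K hK
        by rw [Nk.rad, ext_off K h1 h2, zero_mul, zero_smul],
      elim_zero fun K hK => let ⟨a, h1, h2⟩ := ht K hK
        by rw [Nk.hl, Nd18.Nk.ext, ext_off K h1 h2, zero_smul, smul_zero]⟩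
    exact ⟨_, c.continuous.continuousAt.eventually h0,
      (VH.zero hS (by omega)).ah.congr (fun v hv x => (z _ hv.2 _ x).1) fun v hv x => (z _ hv.2 _ x).1,
      (VH.zero hS (by omega)).ah.congr (fun v hv x => (z _ hv.2 _ x).2) fun v hv x => (z _ hv.2 _ x).2⟩
  obtain ⟨δ, hδ, h1⟩ := rp_dp R
  obtain ⟨O, h2, h3, h4⟩ := eventually_nhds_iff.1 (h1.and (R.op.mem_nhds R.mem))
  have he := h.site.en i
  have hc := (tw h hv).cmp
  have hZ : ∃ S, Sup (d.e (ty i)).D.Z.toPre S := ⟨_, Sup.of_tame he.cyl.tame.choose_spec⟩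
  have hG : ∃ S, Sup (σ.P v₀.2.2).bg.F.toPre S := ⟨_, Sup.of_tame (h.ok _ hv).bg.tame.choose_spec⟩
  have χ := (rp_sb R h h3 (fun t k => (h2 t k).2) hδ fun t k => (h2 t k).1).reparam
    (O' := σ.U k ∩ (fun v : σ.C k => v.2.2) ⁻¹' O) c.contDiffOn fun _ k => k.2
  have Φ := ah_Φ h hβ hk
  have ζ : s.bg.F.Cb (zt K₀ δ) := hc.Cb_iff.2 (cb_ps _ hδ (cb_fz (he.sζ.comp contMDiff_fst) fun _ => rfl))
  have a := (AH.sum hS (by omega) fun j => (ah_a h hβ hk (some j)).smul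
    (SB.fixed (Cb_clm (EuclideanSpace.proj (none, some j)) ζ))).smul (SB.fixed (Cb_const (4 : ℝ)))
  have n := (Φ.inner (by omega) Φ)
  have r := ((n.av K₀.toNk hδ hc hZ hG (n.sb.cb _ hv) fun _ _ _ _ => rfl).nem he.sb (by omega)).smul'
    (by omega) (Φ.app (SB.fixed (h.site.bg.cρ none)))
  have l := ((a.av K₀.toNk hδ hc hZ hG (a.sb.cb _ hv) fun _ _ _ _ => rfl).nem
    (G := fun r => -deriv (d.e (ty i)).f r) (contDiff_infty_iff_deriv.1 he.sf).2.neg (by omega)).smul'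
    (by omega) (AH.fix hS (by omega) (SB.fixed ζ))
  have e := fun v (hv : v ∈ σ.U k ∩ (fun v : σ.C k => v.2.2) ⁻¹' O) =>
    rp_same R (h2 _ hv.2).2 hδ (h2 _ hv.2).1
  refine ⟨_, c.continuous.continuousAt (h3.mem_nhds h4), ((r.mono inter_subset_left).smul χ).congr
    ?_ ?_, ((l.mono inter_subset_left).smul χ).congr ?_ ?_⟩ <;> intro v hv x <;> obtain ⟨K, k1, k2, k3⟩ := e v hv <;>
    rw [Option.mem_def.1 k1, Option.elim_some]
  · rw [k2.rad hδ, k3, h.m _ hv.1]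
  · rw [k2.rad hδ, k3, h.m _ hv.1]
  · rw [k2.hl hδ, k3]; rfl
  · rw [k2.hl hδ, k3]; rfl

theorem vh_rad : (VH s.bg.F.toPre (k + 1) (σ.U k) fun v x =>
      (σ.P v.2.2).bg.eD (σ.bs v.2.2) x - (σ.P v.2.2).p0.D (cv σ v) x) ∧
    VH s.bg.F.toPre (k + 1) (σ.U k) fun v x =>
      (σ.P v.2.2).bg.eC (σ.bs v.2.2) x - (σ.P v.2.2).p0.C (cv σ v) x := by
  have hS : ∃ S, Sup s.bg.F.toPre S := ⟨_, sup h⟩
  have hE := h.site.bg.tame.choose_spec.exh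
  obtain ⟨r, hr⟩ := base_far h hβ
  have c : ContDiff ℝ ∞ fun v : σ.C k => v.2.2 := contDiff_snd.snd
  have a := fun v (hv : v ∈ σ.U k) => by
    choose O h1 h2 h3 using fun i => ah_nk h hβ hk i hv
    exact (⟨_, iInter_mem.2 h1, AH.sum hS (by omega) fun i => (h2 i).mono
      (inter_subset_inter_right _ (iInter_subset O i)), AH.sum hS (by omega) fun i => (h3 i).mono
      (inter_subset_inter_right _ (iInter_subset O i))⟩ : ∃ O ∈ 𝓝 v, AH _ _ (_ ∩ O) _ _ ∧ AH _ _ (_ ∩ O) _ _)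
  constructor <;> refine VH.loc hS (by omega) fun v hv => ?_ <;> obtain ⟨O, h1, h2, h3⟩ := a v hv
  · refine ⟨O, h1, ((VH.cpt hE hS (by omega) ((((inK h).eD (sb_bs h hβ) (sb_bΦ h hβ)).reparam
      c.contDiffOn fun _ k => k.1).sub h2.sb) (h.site.cpt r) fun w hw x hx => ?_).sub h2.vh).congr
        fun w hw x => ?_⟩
    · rw [bg_eq h hw.1, bs_eq h hβ hw.1]
      exact sub_eq_zero.2 (hr _ hw.1 x hx).1
    · rw [bg_eq h hw.1, sub_sub, add_sub_cancel]; rfl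
  · refine ⟨O, h1, ((VH.cpt hE hS (by omega) ((((inK h).eC (sb_bs h hβ) (sb_bΦ h hβ)).reparam
      c.contDiffOn fun _ k => k.1).sub h3.sb) (h.site.cpt r) fun w hw x hx => ?_).sub h3.vh).congr
        fun w hw x => ?_⟩
    · rw [bg_eq h hw.1, bs_eq h hβ hw.1]
      exact sub_eq_zero.2 (hr _ hw.1 x hx).2
    · rw [bg_eq h hw.1, sub_sub, add_sub_cancel]; rfl

omit h hβ hk

/-- **MAP-R** -/
theorem rad (s : Pz X 0 fun i => d.e (ty i)) (σ : Cel s nc nr T) (h : σ.toFam.OK) (hβ : s.Cr σ.β)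
    (k : ℕ) (hk : 7 ≤ k) : ∃ f : σ.C k → σ.Y (k + 1), σ.Rep (fun t c =>
      ((σ.P t).bg.eD (σ.bs t) - (σ.P t).p0.D c, (σ.P t).bg.eC (σ.bs t) - (σ.P t).p0.C c, 0, 0)) f := by
  obtain ⟨f, h1, h2⟩ := (vh_rad h hβ hk).1.out (cb_pm h) (prj_pm h.site.bg).idem
  obtain ⟨g, h3, h4⟩ := (vh_rad h hβ hk).2.out (cb_p2 h) (prj_p2 h.site.bg).idem
  refine ⟨fun v => (f v, g v, 0, 0), h1.prodMk (h3.prodMk contDiffOn_const), fun y => ?_⟩
  have hb := (h.ok _ y.2.1).bg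
  have ha := (as_S h y.2.1 (as_base h.site hβ)).1
  refine Prod.ext (funext fun x => (h2 _ y.2.1 x).trans ?_)
    (Prod.ext (funext fun x => (h4 _ y.2.1 x).trans ?_) rfl) <;> rw [cv_pt h hβ (by omega)]
  · have e : s.bg.pm x = (σ.P y.1.1).bg.pm x := by rw [← bg_eq h y.2.1]; rfl
    rw [e, map_sub]
    exact congrArg₂ (· - ·) (pm_eD hb ha x) (pm_p0 hb y.2.2.1 x)
  · have e : s.bg.p2 x = (σ.P y.1.1).bg.p2 x := by rw [← bg_eq h y.2.1]; rfl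
    rw [e, map_sub]
    exact congrArg₂ (· - ·) (p2_eC hb _ x) (p2_p0 h.site.en _ x)

variable (d ty X nc nr T) in
/-- **SW-MAP** -/
theorem mapStmt : MapStmt d ty X nc nr T :=
  ⟨fun _ _ h hβ _ hk => ⟨_, rep_NL (Op40.opStmt) h hβ (by omega)⟩, rad, St29.ms, St29.mo, St29.Mc.cut⟩

end Crest.Agent.X212.Map44
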