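import Crest.Agent.X212.Map44.VH
import Crest.Agent.X212.Sw88.Cut

/-!
# Row 212, SW-MAP (helper44): slice integrals on cylinders and necks
-/

set_option autoImplicit false
set_option linter.unusedSectionVars false
set_option maxHeartbeats 400000
noncomputable section
open scoped Manifold ContDiff Topology InnerProductSpace
open MeasureTheory Set Function Filter

namespace Crest.Agent.X212.Map44
open An An.Pre Sob92 Prm93 Cyf70 Nd18

variable {E : Type} [NormedAddCommGroup E] [NormedSpace ℝ E] [FiniteDimensional ℝ E]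
  [MeasurableSpace E] [BorelSpace E]
  {HM : Type} [TopologicalSpace HM] {I : ModelWithCorners ℝ E HM} [I.Boundaryless]
  {M : Type} [TopologicalSpace M] [ChartedSpace HM M] [IsManifold I ∞ M]
  [MeasurableSpace M] [T2Space M] [BorelSpace M] [SecondCountableTopology M]
  {E3 : Type} [NormedAddCommGroup E3] [NormedSpace ℝ E3] [FiniteDimensional ℝ E3]
  [MeasurableSpace E3] [BorelSpace E3]
  {H3 : Type} [TopologicalSpace H3] {I3 : ModelWithCorners ℝ E3 H3} [I3.Boundaryless]
  {Y : Type} [TopologicalSpace Y] [ChartedSpace H3 Y] [IsManifold I3 ∞ Y] [T2Space Y]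
  [MeasurableSpace Y] [BorelSpace Y] [SecondCountableTopology Y]
  {ι κ lam : Type} [Fintype ι] [Fintype κ] [Fintype lam]
  {V W : Type} [NormedAddCommGroup V] [InnerProductSpace ℝ V] [CompleteSpace V]
  [NormedAddCommGroup W] [InnerProductSpace ℝ W] [CompleteSpace W]
  {N : Type} [NormedAddCommGroup N] [NormedSpace ℝ N]
  {Z : Type} [NormedAddCommGroup Z] [NormedSpace ℝ Z] {k j : ℕ} {O : Set Z}

/-- represented operators -/
theorem VH.op {F : Pre I M ι} {F' : Pre I3 Y κ} {A : F.H j (triv M V) →L[ℝ] F'.H k (triv Y W)}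
    {T : (M → V) → Y → W} (hA : F.RepT F' A T) (hS : ∃ S, Sup F' S) (hk : 4 ≤ k)
    (hT : ∀ x, Continuous fun h : F.H j (triv M V) => T (F.val j _ h) x) {g : Z → M → V}
    (h : VH F j O g) : VH F' k O fun z => T (g z) := by
  obtain ⟨f, h1, h2⟩ := h.ex
  refine ⟨hS, hk, _, A.contDiff.comp_contDiffOn h1, fun z hz => funext fun x => ?_⟩
  rw [← h2 z hz]
  exact H_eq (f := fun v => F'.ev k _ x (A v)) (g := fun v => T (F.val j _ v) x) (by fun_prop)
    (hT x) (fun v => by
      rw [RepT_toH hA, (ev_spec hS.choose_spec hk x).1, val_toH h.sup.choose_spec h.lev]) _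

variable [CompactSpace Y]

section cyl
variable (F : Pre I3 Y κ) [CompleteSpace N] {u v : Y × ℝ → N}

/-- the slice integral -/
def sI (u : Y × ℝ → N) (x : Y × ℝ) : N := ∫ y, u (y, x.2) ∂F.μ

theorem itg {f : Y → N} (h : Continuous f) : Integrable f F.μ :=
  h.integrable_of_hasCompactSupport (.of_compactSpace _)

theorem cd_sI (hu : Sm (IC I3) u) : ContDiff ℝ ∞ fun s => ∫ y, u (y, s) ∂F.μ :=
  contDiffOn_univ.1 (Sw88.cd_sl F isOpen_univ hu.contMDiffOn)

theorem sm_sI (hu : Sm (IC I3) u) : Sm (IC I3) (sI F u) := sm_snd (cd_sI F hu)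

theorem D_none_sI (hu : Sm (IC I3) u) : (cylP F).D none (sI F u) = sI F ((cylP F).D none u) :=
  (D_none_snd F (cd_sI F hu)).trans (funext fun x =>
    (Sw88.der_sl F isOpen_univ hu.contMDiffOn (mem_univ x.2)).deriv)

theorem D_some_sI (hu : Sm (IC I3) u) (a : κ) : (cylP F).D (some a) (sI F u) = 0 :=
  D_some_snd F (cd_sI F hu) a

theorem CB_sI {C : ℝ} (k : ℕ) : ∀ {u : Y × ℝ → N}, Sm (IC I3) u → (cylP F).CB k u C →
    (cylP F).CB k (sI F u) (|C| * F.μ.real univ) := by
  have h0 : ∀ {u : Y × ℝ → N}, (∀ x, ‖u x‖ ≤ C) → ∀ x, ‖sI F u x‖ ≤ |C| * F.μ.real univ :=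
    fun h x => norm_integral_le_of_norm_le_const (.of_forall fun _ => (h _).trans (le_abs_self C))
  induction k with
  | zero => exact fun _ h => CB_zero.2 (h0 (CB_zero.1 h))
  | succ k ih =>
    intro u hu h
    refine CB_succ.2 ⟨h0 (CB_succ.1 h).1, fun a => ?_⟩
    cases a with
    | none => rw [D_none_sI F hu]; exact ih ((cylP F).sm_D hu _) (CB_D h _)
    | some a =>
      rw [D_some_sI F hu]
      exact CB_mono (CB_const k 0) (by rw [norm_zero]; positivity)

theorem cb_sI (h : (cylP F).Cb u) : (cylP F).Cb (sI F u) :=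
  let ⟨_, hC⟩ := h
  ⟨_, sm_sI F hC.1, fun k => CB_sI F k hC.1 (hC.2 k)⟩

theorem hcs_sI (h : HasCompactSupport u) : HasCompactSupport (sI F u) :=
  HasCompactSupport.intro (isCompact_univ.prod (h.isCompact.image continuous_snd)) fun x hx => by
    have : ∀ y, u (y, x.2) = 0 := fun y => by_contra fun k =>
      hx ⟨trivial, _, subset_tsupport _ k, rfl⟩
    simp [sI, this]

theorem sI_sub (hu : Continuous u) (hv : Continuous v) (x : Y × ℝ) :
    sI F (fun z => u z - v z) x = sI F u x - sI F v x :=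
  integral_sub (itg F (by fun_prop)) (itg F (by fun_prop))

theorem sq_le {f : Y → N} (h : Continuous f) :
    ‖∫ y, f y ∂F.μ‖ ^ 2 ≤ (F.μ.real univ + 1) * ∫ y, ‖f y‖ ^ 2 ∂F.μ := by
  have hv : 0 < F.μ.real univ + 1 := by positivity
  set m := ∫ y, ‖f y‖ ∂F.μ
  have h1 : 0 ≤ ∫ y, (‖f y‖ - m / (F.μ.real univ + 1)) ^ 2 ∂F.μ := integral_nonneg fun _ => sq_nonneg _
  simp only [sub_sq] at h1
  rw [integral_add (itg F (by fun_prop)) (itg F (by fun_prop)), integral_sub (itg F (by fun_prop))
    (itg F (by fun_prop)), integral_mul_const, integral_const_mul, integral_const, smul_eq_mul] at h1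
  refine (pow_le_pow_left₀ (norm_nonneg _) (norm_integral_le_integral_norm f) 2).trans ?_
  change m ^ 2 ≤ _
  change 0 ≤ _ - 2 * m * _ + _ at h1
  obtain ⟨t, ht⟩ : ∃ t, m = t * (F.μ.real univ + 1) := ⟨_, (div_mul_cancel₀ m hv.ne').symm⟩
  rw [ht, mul_div_cancel_right₀ _ hv.ne'] at h1
  rw [ht, mul_pow, mul_comm, sq (_ + 1), mul_assoc]
  exact mul_le_mul_of_nonneg_left (by nlinarith [sq_nonneg t]) hv.le

theorem N2_sI (k : ℕ) : ∀ {u : Y × ℝ → N}, Sm (IC I3) u → HasCompactSupport u →
    N2 (cylP F) k (sI F u) ≤ (F.μ.real univ + 1) ^ 2 * N2 (cylP F) k u := by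
  have h0 : ∀ {u : Y × ℝ → N}, Sm (IC I3) u → HasCompactSupport u →
      N2 (cylP F) 0 (sI F u) ≤ (F.μ.real univ + 1) ^ 2 * N2 (cylP F) 0 u := fun {u} hu hc => by
    have c1 := (sm_sI F hu).continuous
    have c2 := hu.continuous
    have k2 : HasCompactSupport fun x => ‖u x‖ ^ 2 := hc.mono fun x hx h => hx (by simp [h])
    change ∫ x, ‖sI F u x‖ ^ 2 ∂(cylP F).μ ≤ _ * ∫ x, ‖u x‖ ^ 2 ∂(cylP F).μ
    rw [integral_cyl F (by fun_prop) ((hcs_sI F hc).mono fun x hx h => hx (by simp [h])),
      integral_cyl F (by fun_prop) k2, ← integral_const_mul]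
    refine integral_mono_of_nonneg (.of_forall fun _ => integral_nonneg fun _ => sq_nonneg _)
      (((c2.norm.pow 2).integrable_of_hasCompactSupport (μ := (cylP F).μ) k2).integral_prod_right.const_mul _)
      (.of_forall fun t => ?_)
    simp only [sI, integral_const, smul_eq_mul]
    rw [sq (_ + 1), mul_assoc]
    exact mul_le_mul (by linarith) (sq_le F (by fun_prop)) (sq_nonneg _) (by positivity)
  induction k with
  | zero => exact h0
  | succ k ih =>
    intro u hu hc
    rw [N2, N2, n2_succ, n2_succ, mul_add, Finset.mul_sum]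
    refine add_le_add (h0 hu hc) (Finset.sum_le_sum fun a _ => ?_)
    cases a with
    | none =>
      exact (congrArg _ (D_none_sI F hu)).trans_le (ih ((cylP F).sm_D hu _) ((cylP F).hcs_D hc _))
    | some a =>
      refine (congrArg _ (D_some_sI F hu a)).trans_le (le_trans (le_of_eq ?_)
        (mul_nonneg (sq_nonneg _) (n2_nonneg k _)))
      clear ih
      induction k with
      | zero => simp [n2]
      | succ k ih =>
        simp only [n2, Pi.zero_apply, norm_zero, ne_eq, OfNat.ofNat_ne_zero, not_false_eq_true,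
          zero_pow, integral_zero, zero_add]
        exact Finset.sum_eq_zero fun b _ => (congrArg _ (dv_const (0 : N))).trans ih

theorem VH.sI {g : Z → Y × ℝ → V} (h : VH (cylP F) j O g) :
    VH (cylP F) j O fun z => sI F (g z) := by
  have hS := h.sup.choose_spec
  refine h.op (rep_liftT (T := Map44.sI F) (C := F.μ.real univ + 1)
    (fun u hu => mem_triv (sm_sI F hu.1) (hcs_sI F hu.2.1)) (fun u hu v hv => funext fun x => ?_)
    (fun c u _ => funext fun x => integral_smul _ _) (by positivity) fun u hu =>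
      nrm_le_of_sq (mul_nonneg (by positivity) (nrm_nonneg _ _)) ?_).1 h.sup h.lev fun x => ?_
  · have := hu.1.continuous
    have := hv.1.continuous
    exact integral_add (itg F (f := fun y => u (y, x.2)) (by fun_prop))
      (itg F (f := fun y => v (y, x.2)) (by fun_prop))
  · rw [mul_pow, nrm_sq]; exact N2_sI F j hu.1 hu.2.1
  · refine continuous_iff_continuousAt.2 fun v => continuousAt_of_dominated
      (bound := fun _ => √|h.sup.choose| * (‖v‖ + 1)) (.of_forall fun w =>
        ((continuous_val hS h.lev w).comp (by fun_prop)).aestronglyMeasurable) ?_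
      (itg F continuous_const) (.of_forall fun y => ((cylP F).ev j _ _).continuous.continuousAt)
    filter_upwards [continuous_norm.continuousAt.eventually_le_const (lt_add_one ‖v‖)] with w hw
    exact .of_forall fun y => (norm_val_le hS h.lev w _).trans (by gcongr)

end cyl

/-- `1` at depth `≥ d`, `0` at depth `≤ d / 2` -/
def tc (p q : Option ℝ) (d s : ℝ) : ℝ :=
  Real.smoothTransition (ct p q (d / 2) s / Real.smoothTransition (d / 2) ^ 2)

theorem tc_zero {p q : Option ℝ} {d s : ℝ} (h : s ∉ Dp p q (d / 2)) : tc p q d s = 0 := by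
  simp [ct_zero h, tc]

theorem tc_one {p q : Option ℝ} {d s : ℝ} (hd : 0 < d) (h : s ∈ Dp p q d) : tc p q d s = 1 := by
  have h0 : 0 < Real.smoothTransition (d / 2) := Real.smoothTransition.pos_of_pos (by linarith)
  refine Real.smoothTransition.one_of_one_le ((one_le_div (by positivity)).2 ?_)
  have h1 : Real.smoothTransition (d / 2) ≤
      p.elim 1 fun a => Real.smoothTransition (s - a - d / 2) := by
    cases p with
    | none => exact Real.smoothTransition.le_one _
    | some a => exact Real.smoothTransition.monotone (by linarith [h.1 a rfl])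
  have h2 : Real.smoothTransition (d / 2) ≤
      q.elim 1 fun a => Real.smoothTransition (a - s - d / 2) := by
    cases q with
    | none => exact Real.smoothTransition.le_one _
    | some a => exact Real.smoothTransition.monotone (by linarith [h.2 a rfl])
  rw [sq]
  exact mul_le_mul h1 h2 h0.le (h0.le.trans h1)

section nk
variable {D : YD I3 Y κ lam} {B : Base M (Option κ) lam} {G : Geo I M (Option κ) lam}
  (K : Nk D B G) {d : ℝ}

/-- from the neck to the cylinder -/
def pl (d : ℝ) (u : M → N) (x : Y × ℝ) : N := tc K.p K.q d x.2 • u (K.ψ x)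

/-- from the cylinder to the neck -/
def ps (d : ℝ) (u : Y × ℝ → N) (x : M) : N := tc K.p K.q d (K.tm x) • u (K.ψ.symm x)

/-- the slice integral on the neck -/
def av (d : ℝ) (u : M → N) : M → N := ps K d (sI D.F.toPre (pl K d u))

variable (hd : 0 < d)
include hd

theorem av_eq [CompleteSpace N] (u : M → N) {x : M} (hx : x ∈ K.dp d) :
    av K d u x = ∫ y, u (K.ψ (y, K.tm x)) ∂D.F.μ := by
  simp only [av, ps, sI, pl, K.snd_symm (K.dp_sub hd hx), tc_one hd hx, one_smul]

theorem cb_tcM : G.F.Cb fun x => tc K.p K.q d (K.tm x) :=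
  Cb_nem (g := fun v => Real.smoothTransition (v / Real.smoothTransition (d / 2) ^ 2))
    (Real.smoothTransition.contDiff.comp (contDiff_id.div_const _)) (K.cb_cut (half_pos hd))

omit hd in
theorem cb_tcZ (d : ℝ) : D.Z.Cb fun x => tc K.p K.q d x.2 :=
  Cb_nem (g := fun v => Real.smoothTransition (v / Real.smoothTransition (d / 2) ^ 2))
    (Real.smoothTransition.contDiff.comp (contDiff_id.div_const _))
    ⟨_, (bd_ct.choose_spec K.p K.q (d / 2)).cyl D.F.toPre⟩

theorem pl_eq (u : M → N) : pl K d u = pull K.ψ fun x => tc K.p K.q d (K.tm x) • u x :=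
  funext fun x => by
    by_cases hx : x ∈ K.ψ.source
    · rw [pull_of_mem hx, K.tm_ψ x hx, pl]
    · rw [pull_of_notMem hx, pl, tc_zero fun h => hx (K.mem_src.2 (Dp_sub (half_pos hd) h)),
        zero_smul]

theorem ps_eq (u : Y × ℝ → N) : ps K d u = K.push fun x => tc K.p K.q d x.2 • u x :=
  funext fun x => by
    by_cases hx : x ∈ K.ψ.target
    · rw [Nk.push, pull_of_mem (φ := K.ψ.symm) hx, K.snd_symm hx, ps]
    · rw [Nk.push, pull_of_notMem (φ := K.ψ.symm) hx, ps,
        tc_zero fun h => hx (K.dp_sub (half_pos hd) h), zero_smul]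

omit hd in
theorem ts_M {u : M → N} (h : ∀ x ∉ K.dp d, u x = 0) : tsupport u ⊆ K.dp d :=
  closure_minimal (fun x hx => by_contra fun e => hx (h x e)) K.isClosed_dp

theorem cb_pl {u : M → N} (h : G.F.Cb u) : D.Z.Cb (pl K d u) := by
  obtain ⟨C, hC⟩ := Cb_smul (cb_tcM K hd) h
  have ha : Adm K.ψ (tsupport fun x => tc K.p K.q d (K.tm x) • u x) := by
    refine Adm.mono (K := K.dp (d / 2)) ⟨K.dp_sub (half_pos hd), ?_⟩ (isClosed_tsupport _)
      (ts_M K fun x hx => by rw [tc_zero hx, zero_smul])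
    convert (isClosed_Dp (p := K.p) (q := K.q) (d := d / 2)).preimage
      (continuous_snd (X := Y)) using 1
    ext x
    refine ⟨fun h => (K.tm_ψ x h.1 ▸ h.2 : x.2 ∈ Dp K.p K.q (d / 2)), fun h => ?_⟩
    have hx := K.mem_src.2 (Dp_sub (half_pos hd) h)
    exact ⟨hx, show K.tm (K.ψ x) ∈ Dp K.p K.q (d / 2) from (K.tm_ψ x hx).symm ▸ h⟩
  rw [pl_eq K hd]
  exact ⟨_, sm_pull K.iso hC.1 ha, fun k => CB_pull K.iso k hC.1 ha (hC.2 k)⟩

theorem cb_ps {u : Y × ℝ → N} (h : D.Z.Cb u) : G.F.Cb (ps K d u) := by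
  obtain ⟨C, hC⟩ := Cb_smul (cb_tcZ K d) h
  rw [ps_eq K hd]
  exact ⟨_, K.CBs_push (half_pos hd) hC fun z hz => by rw [tc_zero hz, zero_smul]⟩

theorem cb_av [CompleteSpace N] {u : M → N} (h : G.F.Cb u) : G.F.Cb (av K d u) :=
  cb_ps K hd (cb_sI _ (cb_pl K hd h))

theorem VH.pl (hS : ∃ S, Sup D.Z.toPre S) {g : Z → M → V} (h : VH G.F.toPre j O g) :
    VH D.Z.toPre j O fun z => pl K d (g z) := by
  obtain ⟨C, hC⟩ := Cb_smul (cb_tcM K hd) (Cb_const (F := G.F.toPre) (ContinuousLinearMap.id ℝ V))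
  refine (h.op (rep_trH (p' := triv M V) (q := triv _ V) K.iso hC.1 (hC.2 j)
    ((ts_M K fun x hx => by rw [tc_zero hx, zero_smul]).trans (K.dp_sub (half_pos hd)))
    fun _ _ _ _ => rfl).1 hS h.lev fun x => ?_).congr fun z _ x => by rw [pl_eq K hd]; rfl
  by_cases hx : x ∈ K.ψ.source
  · simp only [pull_of_mem hx]
    exact (ContinuousLinearMap.continuous _).comp (G.F.ev j _ _).continuous
  · simp only [pull_of_notMem hx]
    exact continuous_const

theorem VH.ps (hS : ∃ S, Sup G.F.toPre S) {g : Z → Y × ℝ → V} (h : VH D.Z.toPre j O g) :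
    VH G.F.toPre j O fun z => ps K d (g z) := by
  obtain ⟨C, hC⟩ := Cb_smul (cb_tcZ K d) (Cb_const (F := D.Z.toPre) (ContinuousLinearMap.id ℝ V))
  refine (h.op (rep_trH (p' := triv _ V) (q := triv M V) (iso_symm K.iso) hC.1 (hC.2 j)
    (K.adm (half_pos hd) fun x hx => by rw [tc_zero hx, zero_smul]).1
    fun _ _ _ _ => rfl).1 hS h.lev fun x => ?_).congr fun z _ x => by rw [ps_eq K hd]; rfl
  by_cases hx : x ∈ K.ψ.symm.source
  · simp only [pull_of_mem hx]
    exact (ContinuousLinearMap.continuous _).comp (D.Z.ev j _ _).continuous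
  · simp only [pull_of_notMem hx]
    exact continuous_const

variable {F : Pre I M ι} (hc : Cmp F G.F.toPre) (hZ : ∃ S, Sup D.Z.toPre S)
  (hG : ∃ S, Sup G.F.toPre S)
include hc hZ hG

/-- **slice integrals** -/
theorem VH.av {g : Z → M → V} (h : VH F j O g) : VH F j O fun z => av K d (g z) :=
  ((((h.chg hc hG).pl K hd hZ).sI _).ps K hd hG).chg hc.symm h.sup

/-- slice integrals, when the bounded part is fixed on the neck -/
theorem AH.av {b g : Z → M → V} (h : AH F j O b g) {u : M → V} (hu : F.Cb u)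
    (e : ∀ z ∈ O, ∀ x ∈ K.ψ.target, b z x = u x) :
    AH F j O (fun _ => av K d u) fun z => av K d (g z) := by
  refine ⟨SB.fixed (hc.Cb_iff.2 (cb_av K hd (hc.Cb_iff.1 hu))),
    (h.vh.av K hd hc hZ hG).congr fun z hz x => ?_⟩
  have k : ∀ {f : M → V}, Continuous f → ∀ s, Integrable (fun y => Map44.pl K d f (y, s)) D.F.μ :=
    fun hf s => by
      by_cases hs : s ∈ K.J
      · exact itg _ ((hf.comp (K.ψ.continuousOn.comp_continuous (f := fun y => (y, s))
          (by fun_prop) fun y => K.mem_src.2 hs)).const_smul (tc K.p K.q d s))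
      · simp [Map44.pl, tc_zero fun h => hs (Dp_sub (half_pos hd) h)]
  simp only [Map44.av, Map44.ps, Map44.sI]
  rw [← smul_sub, ← integral_sub (k (h.cont hz) _) (k hu.choose_spec.1.continuous _)]
  refine congrArg _ (integral_congr_ae (.of_forall fun y => ?_))
  by_cases hs : (K.ψ.symm x).2 ∈ K.J
  · simp only [Map44.pl, smul_sub, e z hz _ (K.ψ.map_source ((K.mem_src (z := (y, _))).2 hs))]
  · simp [Map44.pl, tc_zero fun h => hs (Dp_sub (half_pos hd) h)]

end nk

end Crest.Agent.X212.Map44
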