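import Crest.Agent.X212.Sob92.Nem
import Crest.Agent.X212.Sob92.Fun
import Crest.Agent.X212.Prm93.Chg

/-!
# Row 212, SW-MAP (helper44): values of smooth maps into Sobolev spaces

`VH F j O g` : `g z` is the value of a smooth map `O → H j`.  `AH F j O b g` : `b` is a smooth
family of bounded functions and `g - b` is of class `VH`.
-/

set_option autoImplicit false
set_option linter.unusedSectionVars false
set_option maxHeartbeats 400000
noncomputable section
open scoped Manifold ContDiff Topology InnerProductSpace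
open MeasureTheory Set Function Filter

namespace Crest.Agent.X212.Map44
open An An.Pre Sob92 Prm93

variable {E : Type} [NormedAddCommGroup E] [NormedSpace ℝ E] [FiniteDimensional ℝ E]
  [MeasurableSpace E] [BorelSpace E]
  {HM : Type} [TopologicalSpace HM] {I : ModelWithCorners ℝ E HM} [I.Boundaryless]
  {M : Type} [TopologicalSpace M] [ChartedSpace HM M] [IsManifold I ∞ M]
  [MeasurableSpace M] [T2Space M] [BorelSpace M] [SecondCountableTopology M]
  {ι ι' : Type} [Fintype ι] [Fintype ι']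
  {U V W : Type} [NormedAddCommGroup U] [InnerProductSpace ℝ U] [CompleteSpace U]
  [NormedAddCommGroup V] [InnerProductSpace ℝ V] [CompleteSpace V]
  [NormedAddCommGroup W] [InnerProductSpace ℝ W] [CompleteSpace W]
  {N : Type} [NormedAddCommGroup N] [NormedSpace ℝ N]
  {Z Z' : Type} [NormedAddCommGroup Z] [NormedSpace ℝ Z] [NormedAddCommGroup Z'] [NormedSpace ℝ Z']
  {F : Pre I M ι} {k j l : ℕ} {O : Set Z}

variable (F j O) in
/-- the values of a smooth map into `H j` -/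
structure VH (g : Z → M → V) : Prop where
  sup : ∃ S, Sup F S
  lev : 4 ≤ j
  ex : ∃ f : Z → F.H j (triv M V), ContDiffOn ℝ ∞ f O ∧ ∀ z ∈ O, F.val j _ (f z) = g z

namespace VH
variable {g g' : Z → M → V} {u : Z → M → W}

theorem congr (h : VH F j O g) (e : ∀ z ∈ O, ∀ x, g' z x = g z x) : VH F j O g' :=
  ⟨h.sup, h.lev, h.ex.imp fun _ h => ⟨h.1, fun z hz => (h.2 z hz).trans (funext (e z hz)).symm⟩⟩

theorem of {p : M → V →L[ℝ] V} (hS : ∃ S, Sup F S) (hj : 4 ≤ j) {f : Z → F.H j p}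
    (hf : ContDiffOn ℝ ∞ f O) : VH F j O fun z => F.val j p (f z) :=
  ⟨hS, hj, _, (fg F j p).contDiff.comp_contDiffOn hf, fun _ _ => val_fg hS.choose_spec hj _⟩

theorem zero (hS : ∃ S, Sup F S) (hj : 4 ≤ j) : VH F j O fun _ _ => (0 : V) :=
  ⟨hS, hj, fun _ => 0, contDiffOn_const, fun _ _ => val_zero⟩

theorem reparam (h : VH F j O g) {φ : Z' → Z} {O' : Set Z'} (hφ : ContDiffOn ℝ ∞ φ O')
    (hm : MapsTo φ O' O) : VH F j O' fun z => g (φ z) := by
  obtain ⟨f, h1, h2⟩ := h.ex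
  exact ⟨h.sup, h.lev, _, h1.comp hφ hm, fun z hz => h2 _ (hm hz)⟩

theorem mono (h : VH F j O g) {O' : Set Z} (hO : O' ⊆ O) : VH F j O' g :=
  h.reparam contDiffOn_id hO

theorem add (h : VH F j O g) (h' : VH F j O g') : VH F j O fun z x => g z x + g' z x := by
  obtain ⟨f, h1, h2⟩ := h.ex
  obtain ⟨f', h1', h2'⟩ := h'.ex
  exact ⟨h.sup, h.lev, _, h1.add h1', fun z hz => by rw [val_add, h2 z hz, h2' z hz]; rfl⟩

theorem fsum {κ : Type*} (s : Finset κ) {v : κ → Z → M → V} (hS : ∃ S, Sup F S) (hj : 4 ≤ j)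
    (h : ∀ i ∈ s, VH F j O (v i)) : VH F j O fun z x => ∑ i ∈ s, v i z x := by
  classical
  induction s using Finset.induction_on with
  | empty => exact zero hS hj
  | insert a s ha ih =>
    exact ((h a (by simp)).add (ih fun i hi => h i (by simp [hi]))).congr fun z _ x => by
      rw [Finset.sum_insert ha]

theorem app {A : Z → M → V →L[ℝ] W} (hA : SB F O A) (h : VH F j O g) :
    VH F j O fun z x => A z x (g z x) := by
  obtain ⟨f, h1, h2⟩ := h.ex
  refine ⟨h.sup, h.lev, _, (hA.mulH (p := triv M V) (q := triv M W) (Cb_const _) (fun _ _ => rfl)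
    fun _ _ => Maps.triv _).clm_apply h1, fun z hz => funext fun x => ?_⟩
  rw [val_mulH h.sup.choose_spec h.lev (hA.cb z hz) (Maps.triv _), h2 z hz]

theorem clm (L : V →L[ℝ] W) (h : VH F j O g) : VH F j O fun z x => L (g z x) :=
  h.app (SB.fixed (Cb_const L))

theorem neg (h : VH F j O g) : VH F j O fun z x => -g z x := h.clm (-ContinuousLinearMap.id ℝ V)

theorem sub (h : VH F j O g) (h' : VH F j O g') : VH F j O fun z x => g z x - g' z x :=
  (h.add h'.neg).congr fun _ _ _ => sub_eq_add_neg _ _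

theorem bl (β : N →L[ℝ] V →L[ℝ] W) {a : Z → M → N} (ha : SB F O a) (h : VH F j O g) :
    VH F j O fun z x => β (a z x) (g z x) := h.app (ha.clm β)

theorem smul {a : Z → M → ℝ} (ha : SB F O a) (h : VH F j O g) :
    VH F j O fun z x => a z x • g z x := h.bl (ContinuousLinearMap.lsmul ℝ ℝ) ha

theorem bil (β : V →L[ℝ] W →L[ℝ] U) (hL : Lev k j l) (hl : 4 ≤ l) (h : VH F k O g)
    (h' : VH F j O u) : VH F l O fun z x => β (g z x) (u z x) := by
  obtain ⟨f, h1, h2⟩ := h.ex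
  obtain ⟨f', h1', h2'⟩ := h'.ex
  refine ⟨h.sup, hl, fun z => F.bilH k j _ _ (triv M U) l (fun _ => β) (f z) (f' z),
    ((ContinuousLinearMap.contDiff _).comp_contDiffOn h1).clm_apply h1',
    fun z hz => funext fun x => ?_⟩
  rw [val_bilH h.sup.choose_spec hL hl (Cb_const β) (Maps₂.triv _), h2 z hz, h2' z hz]

theorem le (hl : 4 ≤ l) (hj : l ≤ j) (h : VH F j O g) : VH F l O g := by
  obtain ⟨f, h1, h2⟩ := h.ex
  exact ⟨h.sup, hl, _, (F.incl j l _).contDiff.comp_contDiffOn h1, fun z hz =>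
    (val_incl h.sup.choose_spec hl hj _).trans (h2 z hz)⟩

theorem cont (h : VH F j O g) {z : Z} (hz : z ∈ O) : Continuous (g z) := by
  obtain ⟨f, -, h2⟩ := h.ex
  exact h2 z hz ▸ continuous_val h.sup.choose_spec h.lev _

theorem md (hj : 4 ≤ j) (h : VH F (j + 1) O g) {z : Z} (hz : z ∈ O) :
    MDifferentiable I 𝓘(ℝ, V) (g z) := by
  obtain ⟨f, -, h2⟩ := h.ex
  exact h2 z hz ▸ (val_DH h.sup.choose_spec hj _).1

theorem D (hj : 4 ≤ j) (h : VH F (j + 1) O g) (a : ι) : VH F j O fun z => F.D a (g z) := by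
  obtain ⟨f, h1, h2⟩ := h.ex
  exact ⟨h.sup, hj, _, (DH F j _ a).contDiff.comp_contDiffOn h1, fun z hz => by
    rw [← h2 z hz, (val_DH h.sup.choose_spec hj _).2]; rfl⟩

/-- the projection to a bundle -/
theorem out {q : M → V →L[ℝ] V} (hq : F.Cb q) (hi : ∀ x v, q x (q x v) = q x v)
    (h : VH F j O g) : ∃ f : Z → F.H j q, ContDiffOn ℝ ∞ f O ∧
      ∀ z ∈ O, ∀ x, F.val j q (f z) x = q x (g z x) := by
  obtain ⟨f, h1, h2⟩ := h.ex
  exact ⟨_, (prH F j q).contDiff.comp_contDiffOn h1, fun z hz x => by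
    rw [comp_apply, val_mulH h.sup.choose_spec h.lev hq (Maps.of_left hi), h2 z hz]⟩

/-- families with compact support -/
theorem cpt {C : ℕ → ℝ} (hE : Exh F C) (hS : ∃ S, Sup F S) (hj : 4 ≤ j) {b : Z → M → V}
    (hb : SB F O b) {K : Set M} (hK : IsCompact K) (h0 : ∀ z ∈ O, ∀ x ∉ K, b z x = 0) :
    VH F j O b := by
  obtain ⟨χ, h1, h2, -, h3⟩ := hE K hK
  refine ((of hS hj (p := triv M ℝ) (f := fun _ => F.toH j _ ⟨χ, mem_triv h1.1 h2⟩)
    contDiffOn_const).bl (ContinuousLinearMap.lsmul ℝ ℝ).flip hb).congr fun z hz x => ?_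
  rw [val_toH hS.choose_spec hj]
  by_cases hx : x ∈ K
  · simp [h3 x hx]
  · simp [h0 z hz x hx]

/-- change of the frame -/
theorem chg {F' : Pre I M ι'} (hc : Cmp F F') (hS : ∃ S, Sup F' S) (h : VH F j O g) :
    VH F' j O g := by
  obtain ⟨f, h1, h2⟩ := h.ex
  refine ⟨hS, h.lev, _, (Prm93.chg j _ hc).contDiff.comp_contDiffOn h1, fun z hz => ?_⟩
  rw [← h2 z hz]
  funext x
  exact H_eq (f := fun v => F'.ev j _ x (Prm93.chg j _ hc v)) (g := F.ev j _ x) (by fun_prop)
    (by fun_prop) (fun v => by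
      rw [chg_toH, (ev_spec hS.choose_spec h.lev x).1, (ev_spec h.sup.choose_spec h.lev x).1]) _

/-- the class is local -/
theorem loc {F : Fr I M ι} (hS : ∃ S, Sup F.toPre S) (hj : 4 ≤ j)
    (h : ∀ z ∈ O, ∃ O' ∈ 𝓝 z, VH F.toPre j (O ∩ O') g) : VH F.toPre j O g := by
  classical
  refine ⟨hS, hj, fun z => if k : ∃ v, F.val j _ v = g z then k.choose else 0, fun z hz => ?_,
    fun z hz => ?_⟩
  · obtain ⟨O', hO, -, -, f, h1, h2⟩ := h z hz
    refine ((h1 z ⟨hz, mem_of_mem_nhds hO⟩).congr (fun w hw => ?_) ?_).mono_of_mem_nhdsWithin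
      (inter_mem_nhdsWithin _ hO)
    · have k : ∃ v, F.val j _ v = g w := ⟨_, h2 w hw⟩
      rw [dif_pos k]
      exact val_injective hS.choose_spec hj (k.choose_spec.trans (h2 w hw).symm)
    · have k : ∃ v, F.val j _ v = g z := ⟨_, h2 z ⟨hz, mem_of_mem_nhds hO⟩⟩
      rw [dif_pos k]
      exact val_injective hS.choose_spec hj
        (k.choose_spec.trans (h2 z ⟨hz, mem_of_mem_nhds hO⟩).symm)
  · obtain ⟨O', hO, -, -, f, -, h2⟩ := h z hz
    have k : ∃ v, F.val j _ v = g z := ⟨_, h2 z ⟨hz, mem_of_mem_nhds hO⟩⟩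
    exact (congrArg _ (dif_pos k)).trans k.choose_spec

end VH

variable (F j O) in
/-- `g` is the bounded family `b` plus a family of class `VH` -/
structure AH (b g : Z → M → V) : Prop where
  sb : SB F O b
  vh : VH F j O fun z x => g z x - b z x

theorem VH.ah {g : Z → M → V} (h : VH F j O g) : AH F j O (fun _ _ => 0) g :=
  ⟨SB.fixed (Cb_const _), h.congr fun _ _ _ => sub_zero _⟩

namespace AH
variable {b b' g g' : Z → M → V} {c u : Z → M → W}

theorem congr (h : AH F j O b g) (e : ∀ z ∈ O, ∀ x, b' z x = b z x)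
    (e' : ∀ z ∈ O, ∀ x, g' z x = g z x) : AH F j O b' g' :=
  ⟨h.sb.congr fun z hz => funext (e z hz), h.vh.congr fun z hz x => by rw [e z hz, e' z hz]⟩

theorem fix (hS : ∃ S, Sup F S) (hj : 4 ≤ j) (h : SB F O b) : AH F j O b b :=
  ⟨h, (VH.zero hS hj).congr fun _ _ _ => sub_self _⟩

theorem pure (h : AH F j O b g) (h' : VH F j O b) : VH F j O g :=
  (h.vh.add h').congr fun _ _ _ => (sub_add_cancel _ _).symm

theorem pure0 (h : AH F j O b g) (e : ∀ z ∈ O, ∀ x, b z x = 0) : VH F j O g :=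
  h.vh.congr fun z hz x => by rw [e z hz, sub_zero]

theorem mono (h : AH F j O b g) {O' : Set Z} (hO : O' ⊆ O) : AH F j O' b g :=
  ⟨h.sb.mono hO, h.vh.mono hO⟩

theorem add (h : AH F j O b g) (h' : AH F j O b' g') :
    AH F j O (fun z x => b z x + b' z x) fun z x => g z x + g' z x :=
  ⟨h.sb.add h'.sb, (h.vh.add h'.vh).congr fun _ _ _ => by abel⟩

theorem sub (h : AH F j O b g) (h' : AH F j O b' g') :
    AH F j O (fun z x => b z x - b' z x) fun z x => g z x - g' z x :=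
  ⟨h.sb.sub h'.sb, (h.vh.sub h'.vh).congr fun _ _ _ => by abel⟩

theorem neg (h : AH F j O b g) : AH F j O (fun z x => -b z x) fun z x => -g z x :=
  ⟨h.sb.neg, h.vh.neg.congr fun _ _ _ => by abel⟩

theorem sum {κ : Type*} [Fintype κ] {v w : κ → Z → M → V} (hS : ∃ S, Sup F S) (hj : 4 ≤ j)
    (h : ∀ i, AH F j O (v i) (w i)) :
    AH F j O (fun z x => ∑ i, v i z x) fun z x => ∑ i, w i z x :=
  ⟨SB.sum fun i => (h i).sb, (VH.fsum _ hS hj fun i _ => (h i).vh).congr fun _ _ _ =>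
    (Finset.sum_sub_distrib _ _).symm⟩

theorem app {A : Z → M → V →L[ℝ] W} (hA : SB F O A) (h : AH F j O b g) :
    AH F j O (fun z x => A z x (b z x)) fun z x => A z x (g z x) :=
  ⟨hA.app h.sb, (h.vh.app hA).congr fun _ _ _ => (map_sub _ _ _).symm⟩

theorem clm (L : V →L[ℝ] W) (h : AH F j O b g) :
    AH F j O (fun z x => L (b z x)) fun z x => L (g z x) := h.app (SB.fixed (Cb_const L))

theorem smul {a : Z → M → ℝ} (ha : SB F O a) (h : AH F j O b g) :
    AH F j O (fun z x => a z x • b z x) fun z x => a z x • g z x :=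
  h.app (ha.clm (ContinuousLinearMap.lsmul ℝ ℝ))

theorem le (hl : 4 ≤ l) (hj : l ≤ j) (h : AH F j O b g) : AH F l O b g := ⟨h.sb, h.vh.le hl hj⟩

theorem bil (β : V →L[ℝ] W →L[ℝ] U) (hj : 7 ≤ j) (h : AH F j O b g) (h' : AH F j O c u) :
    AH F j O (fun z x => β (b z x) (c z x)) fun z x => β (g z x) (u z x) :=
  ⟨h.sb.bil β h'.sb, (((h.vh.bil β (Lev.self hj) h.vh.lev h'.vh).add (h'.vh.bl β h.sb)).add
    (h.vh.bl β.flip h'.sb)).congr fun _ _ _ => by
      simp only [map_sub, sub_apply, ContinuousLinearMap.flip_apply]; abel⟩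

theorem smul' {a a' : Z → M → ℝ} (hj : 7 ≤ j) (ha : AH F j O a a') (h : AH F j O b g) :
    AH F j O (fun z x => a z x • b z x) fun z x => a' z x • g z x :=
  bil (ContinuousLinearMap.lsmul ℝ ℝ) hj ha h

theorem inner (hj : 7 ≤ j) (h : AH F j O b g) (h' : AH F j O b' g') :
    AH F j O (fun z x => ⟪b z x, b' z x⟫_ℝ) fun z x => ⟪g z x, g' z x⟫_ℝ :=
  bil (innerSL ℝ) hj h h'

theorem cont (h : AH F j O b g) {z : Z} (hz : z ∈ O) : Continuous (g z) :=
  ((h.vh.cont hz).add (h.sb.cb z hz).choose_spec.1.continuous).congr fun _ => sub_add_cancel _ _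

theorem md (hj : 4 ≤ j) (h : AH F (j + 1) O b g) {z : Z} (hz : z ∈ O) :
    MDifferentiable I 𝓘(ℝ, V) (g z) := by
  have := (h.vh.md hj hz).add ((h.sb.cb z hz).choose_spec.1.mdifferentiable (by simp))
  exact (funext fun _ => sub_add_cancel _ _ : _ = g z) ▸ this

theorem D (hj : 4 ≤ j) (h : AH F (j + 1) O b g) (a : ι) :
    AH F j O (fun z => F.D a (b z)) fun z => F.D a (g z) :=
  ⟨h.sb.D a, (h.vh.D hj a).congr fun z hz x => (dv_sub (h.md hj hz x)
    ((h.sb.cb z hz).choose_spec.1.mdifferentiable (by simp) x)).symm⟩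

/-- derivatives along a family of frames -/
theorem D' {G : Z → Pre I M ι'} {A : ι' → ι → Z → M → ℝ}
    (hG : ∀ z ∈ O, Mix F (G z) fun a b => A a b z) (hA : ∀ a b, SB F O (A a b)) (hj : 4 ≤ j)
    (h : AH F (j + 1) O b g) (a : ι') :
    AH F j O (fun z => (G z).D a (b z)) fun z => (G z).D a (g z) :=
  (sum h.vh.sup hj fun i => (h.D hj i).smul (hA a i)).congr
    (fun z hz x => by rw [(hG z hz).D]) fun z hz x => by rw [(hG z hz).D]

theorem toLp {α : Type} [Fintype α] {v w : α → Z → M → ℝ} (hS : ∃ S, Sup F S) (hj : 4 ≤ j)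
    (h : ∀ a, AH F j O (v a) (w a)) :
    AH F j O (fun z x => (WithLp.toLp 2 fun a => v a z x : EuclideanSpace ℝ α))
      fun z x => WithLp.toLp 2 fun a => w a z x := by
  classical
  have e : ∀ f : α → ℝ, (WithLp.toLp 2 f : EuclideanSpace ℝ α) =
      ∑ a, (ContinuousLinearMap.id ℝ ℝ).smulRight (EuclideanSpace.single a (1 : ℝ)) (f a) :=
    fun f => by ext a; simp [Finset.sum_apply, Pi.single_apply]
  exact (sum hS hj fun a => (h a).clm _).congr (fun _ _ _ => e _) fun _ _ _ => e _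

/-- smooth functions -/
theorem nem [FiniteDimensional ℝ V] {F : Fr I M ι} {G : V → W} (hG : ContDiff ℝ ∞ G) (hj : 8 ≤ j)
    (h : AH F.toPre j O b g) :
    AH F.toPre j O (fun z x => G (b z x)) fun z x => G (g z x) := by
  obtain ⟨f, h1, h2⟩ := h.vh.ex
  have hS := h.vh.sup.choose_spec
  refine ⟨SB_nem hG h.sb, h.vh.sup, h.vh.lev, _,
    contDiffOn_nem (L := ContinuousLinearMap.id ℝ V) hS hj hG h.sb h1,
    fun z hz => funext fun x => ?_⟩
  rw [val_nem hS hj hG, fn_toB (h.sb.cb z hz), h2 z hz]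
  simp

end AH

end Crest.Agent.X212.Map44
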